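import Mathlib
import Crest.Prelude.Def_BoxFlow

/-!
# Shared definitions for the team proof of S0170 (box flows)

All team files for S0170 import this file and use these definitions verbatim.
-/

set_option autoImplicit false

open scoped ContDiff
open Crest.AnalysisR.BoxFlow

namespace Crest.Agent.BoxFlow

/-! ## One-dimensional effective smooth functions -/

/-- Gevrey-3 type bounds on all derivatives, with natural-number constants:
`|f^(k) x| ≤ a * c^k * (k!)^3` for all `k` and `x`. -/
def GevreyBound (f : ℝ → ℝ) (a c : ℕ) : Prop :=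
  ∀ (k : ℕ) (x : ℝ), |iteratedDeriv k f x| ≤ (a : ℝ) * (c : ℝ) ^ k * ((k.factorial : ℝ)) ^ 3

/-- Computable rational approximations of the values of `f` at rational points. -/
def ValApprox (f : ℝ → ℝ) : Prop :=
  ∃ A : ℚ × ℕ → ℚ, Computable A ∧
    ∀ (r : ℚ) (n : ℕ), |f (r : ℝ) - (A (r, n) : ℝ)| ≤ 1 / ((n : ℝ) + 1)

/-- Computable rational approximations of all derivatives of `f` at rational points. -/
def DerivApprox (f : ℝ → ℝ) : Prop :=
  ∃ A : ℕ × ℚ × ℕ → ℚ, Computable A ∧
    ∀ (k : ℕ) (r : ℚ) (n : ℕ), |iteratedDeriv k f (r : ℝ) - (A (k, r, n) : ℝ)| ≤ 1 / ((n : ℝ) + 1)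

/-- An effective smooth function of one real variable. -/
structure Eff1 (f : ℝ → ℝ) : Prop where
  smooth : ContDiff ℝ ∞ f
  gevrey : ∃ a c : ℕ, GevreyBound f a c
  approx : ValApprox f

/-! ## Separable fields and stream-function fields -/

/-- The separable field `(t, x) ↦ m t * f 0 (x 0) * f 1 (x 1) * f 2 (x 2)` in the direction `e_j`. -/
noncomputable def sepTerm (m : ℝ → ℝ) (f : Fin 3 → ℝ → ℝ) (j : Fin 3) : Field :=
  fun p => Pi.single j (m p.1 * ∏ i : Fin 3, f i (p.2 i))

/-- The stream-function field in the `(a, b)`-plane with stream function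
`ψ (t, x) = m t * f 0 (x 0) * f 1 (x 1) * f 2 (x 2)`:  `∂_b ψ • e_a - ∂_a ψ • e_b`. -/
noncomputable def streamField (m : ℝ → ℝ) (f : Fin 3 → ℝ → ℝ) (a b : Fin 3) : Field :=
  sepTerm m (Function.update f b (deriv (f b))) a - sepTerm m (Function.update f a (deriv (f a))) b

/-! ## Box configurations and elementary moves -/

/-- A configuration of `n` rational boxes: centres `c i` and half-widths `h i`. -/
structure Conf (n : ℕ) where
  c : Fin n → Fin 3 → ℚ
  h : Fin n → Fin 3 → ℚ

/-- All half-widths are positive. -/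
def Conf.Pos {n : ℕ} (X : Conf n) : Prop := ∀ i j, 0 < X.h i j

/-- Two rational boxes (centre, half-widths) are strictly separated along some axis. -/
def Sep (c h c' h' : Fin 3 → ℚ) : Prop := ∃ j : Fin 3, h j + h' j < |c j - c' j|

/-- Pairwise separated boxes. -/
def Conf.Disj {n : ℕ} (X : Conf n) : Prop :=
  ∀ i i', i ≠ i' → Sep (X.c i) (X.h i) (X.c i') (X.h i')

/-- Translate box `i` by `d` along the axis `a`. -/
def Conf.translate {n : ℕ} (X : Conf n) (i : Fin n) (a : Fin 3) (d : ℚ) : Conf n where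
  c := Function.update X.c i (Function.update (X.c i) a (X.c i a + d))
  h := X.h

/-- Squeeze box `i` in the `(a, b)`-plane by the ratio `r`: `h_a ↦ r * h_a`, `h_b ↦ h_b / r`. -/
def Conf.squeeze {n : ℕ} (X : Conf n) (i : Fin n) (a b : Fin 3) (r : ℚ) : Conf n where
  c := X.c
  h := Function.update X.h i
    (Function.update (Function.update (X.h i) a (r * X.h i a)) b (X.h i b / r))

/-- Centre of the hull (bounding box of start and end position) of a translation move. -/
def transHullC {n : ℕ} (X : Conf n) (i : Fin n) (a : Fin 3) (d : ℚ) : Fin 3 → ℚ :=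
  Function.update (X.c i) a (X.c i a + d / 2)

/-- Half-widths of the hull of a translation move. -/
def transHullH {n : ℕ} (X : Conf n) (i : Fin n) (a : Fin 3) (d : ℚ) : Fin 3 → ℚ :=
  Function.update (X.h i) a (X.h i a + |d| / 2)

/-- Half-widths of the hull of a squeeze move (the centre is `X.c i`). -/
def sqHullH {n : ℕ} (X : Conf n) (i : Fin n) (a b : Fin 3) (r : ℚ) : Fin 3 → ℚ :=
  Function.update (Function.update (X.h i) a (max (X.h i a) (r * X.h i a))) b
    (max (X.h i b) (X.h i b / r))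

/-- A translation move is valid when its hull is separated from all other boxes. -/
def TransValid {n : ℕ} (X : Conf n) (i : Fin n) (a : Fin 3) (d : ℚ) : Prop :=
  ∀ i', i' ≠ i → Sep (transHullC X i a d) (transHullH X i a d) (X.c i') (X.h i')

/-- A squeeze move is valid when its hull is separated from all other boxes. -/
def SqValid {n : ℕ} (X : Conf n) (i : Fin n) (a b : Fin 3) (r : ℚ) : Prop :=
  ∀ i', i' ≠ i → Sep (X.c i) (sqHullH X i a b r) (X.c i') (X.h i')

/-- Reachability by finitely many valid elementary moves. -/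
inductive Reach {n : ℕ} : Conf n → Conf n → Prop
  | refl (X : Conf n) : Reach X X
  | translate (X : Conf n) (i : Fin n) (a : Fin 3) (d : ℚ) (hpos : X.Pos)
      (hv : TransValid X i a d) {Z : Conf n} (hZ : Reach (X.translate i a d) Z) : Reach X Z
  | squeeze (X : Conf n) (i : Fin n) (a b : Fin 3) (r : ℚ) (hpos : X.Pos) (hab : a ≠ b)
      (hr : 0 < r) (hv : SqValid X i a b r) {Z : Conf n} (hZ : Reach (X.squeeze i a b r) Z) :
      Reach X Z

/-! ## Realisation of a pair of configurations by a flow on a time interval -/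

/-- The affine map attached to box `i` of the pair `(X, Y)`:
`x ↦ Y.c i + (Y.h i / X.h i) * (x - X.c i)` (coordinatewise). -/
def boxMap {n : ℕ} (X Y : Conf n) (i : Fin n) (x : Fin 3 → ℝ) : Fin 3 → ℝ :=
  fun j => (Y.c i j : ℝ) + ((Y.h i j / X.h i j : ℚ) : ℝ) * (x j - (X.c i j : ℝ))

/-- `X` is carried to `Y` by the flow of an effective smooth compactly supported divergence-free
field that is active only for times in the open interval `(α, β)`. -/
def Realizes (n : ℕ) (α β : ℚ) (X Y : Conf n) : Prop :=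
  ∃ (U : Field) (Φ : ℝ → (Fin 3 → ℝ) → (Fin 3 → ℝ)),
    ContDiff ℝ ∞ U ∧ HasCompactSupport U ∧ Effective U ∧
    (∀ p : ℝ × (Fin 3 → ℝ), p.1 ∉ Set.Ioo (α : ℝ) (β : ℝ) → U p = 0) ∧
    (∀ p : ℝ × (Fin 3 → ℝ), spaceDiv U p = 0) ∧ IsFlow U Φ ∧
    (∀ t : ℝ, t ≤ (α : ℝ) → ∀ x, Φ t x = x) ∧
    (∀ t : ℝ, (β : ℝ) ≤ t → ∀ x, Φ t x = Φ (β : ℝ) x) ∧
    ∀ i : Fin n, ∃ O : Set (Fin 3 → ℝ), IsOpen O ∧ box (X.c i) (X.h i) ⊆ O ∧
      ∀ x ∈ O, Φ (β : ℝ) x = boxMap X Y i x

end Crest.Agent.BoxFlow
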